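import Mathlib

namespace Vale.Agent.Lib.P064

open Finset

section
variable {V : Type*} [Fintype V] [DecidableEq V]

/-- Closure under parents and strict depth force patterns hanging below vertices of equal
depth to be disjoint unless the two vertices coincide. -/
theorem pattern_disj (par : V → Option V) (d : V → ℕ)
    (hd : ∀ u v, par u = some v → d u = d v + 1)
    (v1 v2 : V) (E1 E2 : Finset V)
    (h1 : ∀ x ∈ E1, par x = some v1 ∨ ∃ y ∈ E1, par x = some y)
    (h2 : ∀ x ∈ E2, par x = some v2 ∨ ∃ y ∈ E2, par x = some y)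
    (s1 : ∀ x ∈ E1, d v1 < d x) (s2 : ∀ x ∈ E2, d v2 < d x) (hv : d v1 = d v2) :
    ∀ k x, d x = k → x ∈ insert v1 E1 → x ∈ insert v2 E2 → v1 = v2 := by
  intro k
  induction k using Nat.strong_induction_on with
  | _ k ih =>
    intro x hx hx1 hx2
    rw [Finset.mem_insert] at hx1 hx2
    rcases hx1 with hx1 | hx1
    · rcases hx2 with hx2 | hx2
      · rw [← hx1, ← hx2]
      · have := s2 _ hx2
        rw [hx1] at this
        omega
    · rcases hx2 with hx2 | hx2
      · have := s1 _ hx1
        rw [hx2] at this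
        omega
      · obtain ⟨p1, hp1, hp1m⟩ : ∃ p, par x = some p ∧ p ∈ insert v1 E1 := by
          rcases h1 x hx1 with h | ⟨y, hy, h⟩
          · exact ⟨v1, h, Finset.mem_insert_self _ _⟩
          · exact ⟨y, h, Finset.mem_insert_of_mem hy⟩
        obtain ⟨p2, hp2, hp2m⟩ : ∃ p, par x = some p ∧ p ∈ insert v2 E2 := by
          rcases h2 x hx2 with h | ⟨y, hy, h⟩
          · exact ⟨v2, h, Finset.mem_insert_self _ _⟩
          · exact ⟨y, h, Finset.mem_insert_of_mem hy⟩
        have hpp : p1 = p2 := by
          rw [hp1] at hp2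
          exact Option.some.inj hp2
        rw [← hpp] at hp2m
        have hdx := hd x p1 hp1
        exact ih (d p1) (by omega) p1 rfl hp1m hp2m

/-- Level recursion for the optimal pattern weight. -/
noncomputable def Plev (par : V → Option V) (β : ℝ) : ℕ → V → ℝ
  | 0, _ => 1
  | (t + 1), v =>
    ((Finset.univ.filter (fun u => par u = some v)).powerset).sup'
      ⟨∅, Finset.empty_mem_powerset _⟩
      (fun A => (A.card.factorial : ℝ) * β ^ A.card * ∏ u ∈ A, Plev par β t u)

/-- Level recursion for the vertex set of an optimal pattern. -/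
def Elev (Astar : V → Finset V) : ℕ → V → Finset V
  | 0, _ => ∅
  | (t + 1), v => (Astar v).biUnion (fun u => insert u (Elev Astar t u))

/-- The three properties of a pattern `E` hanging below `v`. -/
def PatOK (par : V → Option V) (d : V → ℕ) (β : ℝ) (P : V → ℝ) (v : V) (E : Finset V) : Prop :=
  P v = β ^ E.card *
      ((∏ y ∈ insert v E, (E.filter (fun x => par x = some y)).card.factorial : ℕ) : ℝ) ∧
  (∀ x ∈ E, par x = some v ∨ ∃ y ∈ E, par x = some y) ∧
  (∀ x ∈ E, d v < d x ∧ d x ≤ d v + E.card)

theorem pat_step (par : V → Option V) (d : V → ℕ)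
    (hd : ∀ u v, par u = some v → d u = d v + 1) (β : ℝ) (P : V → ℝ)
    (v : V) (A : Finset V) (F : V → Finset V)
    (hA : ∀ u ∈ A, par u = some v)
    (hP : P v = (A.card.factorial : ℝ) * β ^ A.card * ∏ u ∈ A, P u)
    (hF : ∀ u ∈ A, PatOK par d β P u (F u)) :
    PatOK par d β P v (A.biUnion (fun u => insert u (F u))) := by
  classical
  obtain ⟨E, hE⟩ : ∃ E : Finset V, E = A.biUnion (fun u => insert u (F u)) := ⟨_, rfl⟩
  rw [← hE]
  have f1 : ∀ u ∈ A, d u = d v + 1 := fun u hu => hd u v (hA u hu)
  have f2 : ∀ u ∈ A, u ∉ F u := by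
    intro u hu hmem
    have := ((hF u hu).2.2 u hmem).1
    omega
  have f3 : ∀ u ∈ A, ∀ u' ∈ A, ∀ x, x ∈ insert u (F u) → x ∈ insert u' (F u') → u = u' := by
    intro u hu u' hu' x hx hx'
    exact pattern_disj par d hd u u' (F u) (F u') (hF u hu).2.1 (hF u' hu').2.1
      (fun x hx => ((hF u hu).2.2 x hx).1) (fun x hx => ((hF u' hu').2.2 x hx).1)
      (by rw [f1 u hu, f1 u' hu']) (d x) x rfl hx hx'
  have hdisj : ((A : Finset V) : Set V).PairwiseDisjoint (fun u => insert u (F u)) := by
    intro u hu u' hu' hne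
    show Disjoint (insert u (F u)) (insert u' (F u'))
    rw [Finset.disjoint_left]
    intro x hx hx'
    exact hne (f3 u (Finset.mem_coe.mp hu) u' (Finset.mem_coe.mp hu') x hx hx')
  have hmemE : ∀ x, x ∈ E ↔ ∃ u ∈ A, x ∈ insert u (F u) := by
    intro x
    rw [hE, Finset.mem_biUnion]
  have f6 : ∀ x ∈ E, d v < d x := by
    intro x hx
    obtain ⟨u, hu, hxu⟩ := (hmemE x).1 hx
    rw [Finset.mem_insert] at hxu
    have h1 := f1 u hu
    rcases hxu with hxu | hxu
    · rw [hxu]; omega
    · have := ((hF u hu).2.2 x hxu).1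
      omega
  have f5 : v ∉ E := fun h => by
    have := f6 v h
    omega
  have hcard : E.card = ∑ u ∈ A, ((F u).card + 1) := by
    rw [hE, Finset.card_biUnion hdisj]
    apply Finset.sum_congr rfl
    intro u hu
    rw [Finset.card_insert_of_notMem (f2 u hu)]
  have hcardle : ∀ u ∈ A, (F u).card + 1 ≤ E.card := by
    intro u hu
    rw [hcard]
    exact Finset.single_le_sum (f := fun u => (F u).card + 1) (fun _ _ => Nat.zero_le _) hu
  have hprodE : ∀ g : V → ℕ, ∏ y ∈ E, g y = ∏ u ∈ A, ∏ y ∈ insert u (F u), g y := by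
    intro g
    rw [hE]
    exact Finset.prod_biUnion hdisj
  refine ⟨?_, ?_, ?_⟩
  · have hfibv : E.filter (fun x => par x = some v) = A := by
      ext x
      rw [Finset.mem_filter]
      constructor
      · rintro ⟨hx, hpx⟩
        obtain ⟨u, hu, hxu⟩ := (hmemE x).1 hx
        rw [Finset.mem_insert] at hxu
        rcases hxu with hxu | hxu
        · rw [hxu]; exact hu
        · exfalso
          have h1 := ((hF u hu).2.2 x hxu).1
          have h2 := f1 u hu
          have h3 := hd x v hpx
          omega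
      · intro hx
        exact ⟨(hmemE x).2 ⟨x, hx, Finset.mem_insert_self _ _⟩, hA x hx⟩
    have hfib : ∀ u ∈ A, ∀ y ∈ insert u (F u),
        E.filter (fun x => par x = some y) = (F u).filter (fun x => par x = some y) := by
      intro u hu y hy
      ext x
      rw [Finset.mem_filter, Finset.mem_filter]
      constructor
      · rintro ⟨hx, hpx⟩
        refine ⟨?_, hpx⟩
        obtain ⟨u', hu', hxu'⟩ := (hmemE x).1 hx
        rw [Finset.mem_insert] at hxu'
        have hyd : d v < d y := f6 y ((hmemE y).2 ⟨u, hu, hy⟩)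
        rcases hxu' with hxu' | hxu'
        · exfalso
          have h1 := hA _ hu'
          rw [hxu', h1] at hpx
          have h2 : v = y := Option.some.inj hpx
          rw [h2] at hyd
          omega
        · have hy' : y ∈ insert u' (F u') := by
            rcases (hF u' hu').2.1 x hxu' with h | ⟨y', hy', h⟩
            · rw [h] at hpx
              have h2 : u' = y := Option.some.inj hpx
              rw [← h2]; exact Finset.mem_insert_self _ _
            · rw [h] at hpx
              have h2 : y' = y := Option.some.inj hpx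
              rw [← h2]; exact Finset.mem_insert_of_mem hy'
          have h3 : u = u' := f3 u hu u' hu' y hy hy'
          rw [h3]; exact hxu'
      · rintro ⟨hx, hpx⟩
        exact ⟨(hmemE x).2 ⟨u, hu, Finset.mem_insert_of_mem hx⟩, hpx⟩
    have hN : (∏ y ∈ insert v E, (E.filter (fun x => par x = some y)).card.factorial)
        = A.card.factorial * ∏ u ∈ A, ∏ y ∈ insert u (F u),
            ((F u).filter (fun x => par x = some y)).card.factorial := by
      rw [Finset.prod_insert f5, hfibv, hprodE]
      congr 1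
      apply Finset.prod_congr rfl
      intro u hu
      apply Finset.prod_congr rfl
      intro y hy
      rw [hfib u hu y hy]
    have hPu : ∀ u ∈ A, P u = β ^ (F u).card *
        ((∏ y ∈ insert u (F u), ((F u).filter (fun x => par x = some y)).card.factorial : ℕ) : ℝ) :=
      fun u hu => (hF u hu).1
    have hpow : β ^ (∑ u ∈ A, ((F u).card + 1)) = β ^ A.card * ∏ u ∈ A, β ^ (F u).card := by
      rw [← Finset.prod_pow_eq_pow_sum]
      simp only [pow_succ]
      rw [Finset.prod_mul_distrib, Finset.prod_const]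
      ring
    rw [hP, hN, hcard, Finset.prod_congr rfl hPu, Finset.prod_mul_distrib, hpow]
    push_cast
    ring
  · intro x hx
    obtain ⟨u, hu, hxu⟩ := (hmemE x).1 hx
    rw [Finset.mem_insert] at hxu
    rcases hxu with hxu | hxu
    · left; rw [hxu]; exact hA _ hu
    · right
      rcases (hF u hu).2.1 x hxu with h | ⟨y, hy, h⟩
      · exact ⟨u, (hmemE u).2 ⟨u, hu, Finset.mem_insert_self _ _⟩, h⟩
      · exact ⟨y, (hmemE y).2 ⟨u, hu, Finset.mem_insert_of_mem hy⟩, h⟩
  · intro x hx
    refine ⟨f6 x hx, ?_⟩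
    obtain ⟨u, hu, hxu⟩ := (hmemE x).1 hx
    rw [Finset.mem_insert] at hxu
    have h1 := f1 u hu
    have h2 := hcardle u hu
    rcases hxu with hxu | hxu
    · rw [hxu]; omega
    · have := ((hF u hu).2.2 x hxu).2
      omega

theorem exists_patterns (par : V → Option V) (d : V → ℕ)
    (hd : ∀ u v, par u = some v → d u = d v + 1) (β : ℝ) (hβ : 0 < β) :
    ∃ (P : V → ℝ) (E : V → Finset V),
      (∀ v, ∀ A : Finset V, (∀ u ∈ A, par u = some v) →
          (A.card.factorial : ℝ) * β ^ A.card * ∏ u ∈ A, P u ≤ P v) ∧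
      (∀ v, P v = β ^ (E v).card *
          ((∏ y ∈ insert v (E v), ((E v).filter (fun x => par x = some y)).card.factorial : ℕ) : ℝ)) ∧
      (∀ v, ∀ x ∈ E v, par x = some v ∨ ∃ y ∈ E v, par x = some y) ∧
      (∀ v, ∀ x ∈ E v, d v < d x ∧ d x ≤ d v + (E v).card) := by
  classical
  have _hβ := hβ
  obtain ⟨D, hDdef⟩ : ∃ D : ℕ, D = (Finset.univ.sup d) + 1 := ⟨_, rfl⟩
  have hdD : ∀ v, d v < D := fun v => by
    rw [hDdef]
    exact Nat.lt_succ_of_le (Finset.le_sup (f := d) (Finset.mem_univ v))
  obtain ⟨P, hPv⟩ : ∃ P : V → ℝ, ∀ v, P v = Plev par β (D - d v) v := ⟨_, fun _ => rfl⟩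
  have hPrec : ∀ v, P v = ((Finset.univ.filter (fun u => par u = some v)).powerset).sup'
      ⟨∅, Finset.empty_mem_powerset _⟩
      (fun A => (A.card.factorial : ℝ) * β ^ A.card * ∏ u ∈ A, P u) := by
    intro v
    obtain ⟨t, ht⟩ : ∃ t, D - d v = t + 1 := ⟨D - d v - 1, by have := hdD v; omega⟩
    have hv : P v = Plev par β (t + 1) v := by rw [hPv, ht]
    rw [hv]
    show ((Finset.univ.filter (fun u => par u = some v)).powerset).sup'
      ⟨∅, Finset.empty_mem_powerset _⟩
      (fun A => (A.card.factorial : ℝ) * β ^ A.card * ∏ u ∈ A, Plev par β t u) = _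
    apply Finset.sup'_congr _ rfl
    intro A hA
    congr 1
    apply Finset.prod_congr rfl
    intro u hu
    have hu' : par u = some v := by
      have := Finset.mem_powerset.mp hA hu
      simpa using this
    have h1 := hd u v hu'
    have h2 : D - d u = t := by omega
    rw [hPv, h2]
  have prop1 : ∀ v, ∀ A : Finset V, (∀ u ∈ A, par u = some v) →
      (A.card.factorial : ℝ) * β ^ A.card * ∏ u ∈ A, P u ≤ P v := by
    intro v A hA
    rw [hPrec v]
    apply Finset.le_sup' (fun A : Finset V => (A.card.factorial : ℝ) * β ^ A.card * ∏ u ∈ A, P u)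
    rw [Finset.mem_powerset]
    intro u hu
    simp [hA u hu]
  have hmax : ∀ v, ∃ A : Finset V, (∀ u ∈ A, par u = some v) ∧
      P v = (A.card.factorial : ℝ) * β ^ A.card * ∏ u ∈ A, P u := by
    intro v
    obtain ⟨A, hA, hEq⟩ := Finset.exists_mem_eq_sup'
      (s := (Finset.univ.filter (fun u => par u = some v)).powerset)
      ⟨∅, Finset.empty_mem_powerset _⟩
      (fun A : Finset V => (A.card.factorial : ℝ) * β ^ A.card * ∏ u ∈ A, P u)
    refine ⟨A, ?_, ?_⟩
    · intro u hu
      have := Finset.mem_powerset.mp hA hu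
      simpa using this
    · rw [hPrec v]; exact hEq
  choose Astar hA1 hA2 using hmax
  have hE : ∀ t v, D - d v = t → PatOK par d β P v (Elev Astar t v) := by
    intro t
    induction t with
    | zero =>
      intro v hv
      have := hdD v
      omega
    | succ t ih =>
      intro v hv
      show PatOK par d β P v ((Astar v).biUnion (fun u => insert u (Elev Astar t u)))
      apply pat_step par d hd β P v (Astar v) (Elev Astar t) (hA1 v) (hA2 v)
      intro u hu
      apply ih
      have := hd u v (hA1 v u hu)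
      omega
  refine ⟨P, fun v => Elev Astar (D - d v) v, prop1, ?_, ?_, ?_⟩
  · intro v; exact (hE _ v rfl).1
  · intro v; exact (hE _ v rfl).2.1
  · intro v; exact (hE _ v rfl).2.2

end

end Vale.Agent.Lib.P064
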